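import Vale.Agent.P251.F.Honda
import Vale.Agent.P251.F.Inv
import Vale.Agent.P251.F.F3Pt

/-!
# P257: Hazewinkel generators

`HazRel p l v` : Hazewinkel's relation `p l_n = ∑_{i < n} l_i v_{n-i}^{p^i}`, `l_0 = 1`.
`IsHaz p φ F v l` : the law `F` over `B` has, after base change along `φ : B → K`, the logarithm
`∑ l_n x^{p^n}`, where `l` and `v_1, v_2, … ∈ B` satisfy Hazewinkel's relation.

Main result `IsHaz.Ih_eq`: if `φ` is injective, the ideals `(p, v_1, …, v_{n-1})` of the Hazewinkel
generators are the ideals `I_n` generated by the coefficients of `x^{p^i}`, `i < n`, of the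
`p`-series `[p]_F(x)`; more precisely `[p]_F(x) = v_n x^{p^n}` modulo `(p, v_1, …, v_{n-1})` and
`x^{p^{n+1}}`.
-/

namespace Vale.Agent.P257.V4.S.Haz

open MvPowerSeries Finsupp Vale.Agent.P217 Vale.Agent.P251.F

variable {B K : Type*} [CommRing B] [CommRing K]

/-- Hazewinkel's relation between the coefficients `l_n` of the logarithm and the generators
`v_1, v_2, …` (`v 0` does not occur). -/
def HazRel (p : ℕ) (l v : ℕ → K) : Prop :=
  l 0 = 1 ∧ ∀ n, 0 < n → (p : K) * l n = ∑ i ∈ Finset.range n, l i * v (n - i) ^ p ^ i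

/-- The law `F` over `B` has the logarithm `∑ l_n x^{p^n}` over `K`, with Hazewinkel generators
`v_1, v_2, … ∈ B`. -/
structure IsHaz (p : ℕ) (φ : B →+* K) (F : Law B) (v : ℕ → B) (l : ℕ → K) : Prop where
  rel : HazRel p l (fun i => φ (v i))
  log : IsLog (F.map φ).toFG (lser p l)

section Int

variable {p : ℕ} {φ : B →+* K} {v : ℕ → B} {l : ℕ → K}

/-- `p^n l_n` is integral. -/
theorem HazRel.exists_int (h : HazRel p l (fun i => φ (v i))) (n : ℕ) :
    ∃ b : B, (p : K) ^ n * l n = φ b := by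
  induction n using Nat.strong_induction_on with
  | _ n ih =>
    rcases Nat.eq_zero_or_pos n with rfl | hn
    · exact ⟨1, by rw [h.1, pow_zero, one_mul, map_one]⟩
    choose! b hb using ih
    refine ⟨∑ i ∈ Finset.range n, (p : B) ^ (n - 1 - i) * b i * v (n - i) ^ p ^ i, ?_⟩
    obtain ⟨m, rfl⟩ : ∃ m, n = m + 1 := ⟨n - 1, by omega⟩
    rw [pow_succ, mul_assoc, h.2 _ hn, Finset.mul_sum, map_sum]
    refine Finset.sum_congr rfl fun i hi => ?_
    have hi' := Finset.mem_range.1 hi
    rw [map_mul, map_mul, map_pow, map_pow, map_natCast, ← hb i hi']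
    have e : (p : K) ^ m = (p : K) ^ (m + 1 - 1 - i) * (p : K) ^ i := by
      rw [← pow_add]
      congr 1
      omega
    rw [e]
    ring

theorem aux_le {p : ℕ} (hp : 2 ≤ p) (i : ℕ) : i + 2 ≤ p ^ (i + 1) := by
  have h1 : i + 1 < p ^ (i + 1) := Nat.lt_pow_self (by omega)
  omega

/-- If the logarithm of an integral series is divisible by `p` up to degree `N`, then so is the
series. -/
theorem dvd_of_log (hφ : Function.Injective φ) (hp : 2 ≤ p) (h : HazRel p l (fun i => φ (v i)))
    {τ : Type*} {A : MvPowerSeries τ B} (hA : constantCoeff A = 0) (r : (τ →₀ ℕ) → B) (N : ℕ)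
    (hr : ∀ e : τ →₀ ℕ, degree e < N →
      coeff e (PowerSeries.subst (A.map φ) (lser p l) : MvPowerSeries τ K) = φ (p * r e)) :
    ∀ e : τ →₀ ℕ, degree e < N → (p : B) ∣ coeff e A := by
  classical
  choose b hb using h.exists_int
  have key : ∀ d ≤ N, ∀ e : τ →₀ ℕ, degree e < d → (p : B) ∣ coeff e A := by
    intro d
    induction d with
    | zero => intro _ e he; omega
    | succ d ih =>
      intro hd e he
      rcases Nat.lt_or_ge (degree e) d with he' | he'
      · exact ih (by omega) e he'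
      have hed : degree e = d := by omega
      choose! g hg using ih (by omega)
      let A' : MvPowerSeries τ B := fun f => if degree f < d then coeff f A else 0
      let A'' : MvPowerSeries τ B := fun f => if degree f < d then g f else 0
      have hA' : ∀ f, coeff f A' = if degree f < d then coeff f A else 0 := fun _ => rfl
      have hA'' : ∀ f, coeff f A'' = if degree f < d then g f else 0 := fun _ => rfl
      have e1 : A' = C (p : B) * A'' := by
        ext f
        rw [coeff_C_mul, hA', hA'']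
        split_ifs with hf
        · exact hg f hf
        · rw [mul_zero]
      have hag : AgreeLT d A A' := by
        intro f hf
        rw [hA', if_pos hf]
      have hA'0 : constantCoeff A' = 0 := by
        rw [← coeff_zero_eq_constantCoeff_apply, hA']
        split_ifs
        · rw [coeff_zero_eq_constantCoeff_apply, hA]
        · rfl
      have h1 := hr e (by omega)
      have hAφ : constantCoeff (A.map φ) = 0 := by rw [constantCoeff_map, hA, map_zero]
      rw [coeff_subst_lser' hp l h.1 hAφ, coeff_map] at h1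
      have h2 : ∀ i, l (i + 1) * coeff e (A.map φ ^ (p ^ (i + 1))) =
          φ (p * ((p : B) ^ (p ^ (i + 1) - (i + 2)) * b (i + 1) *
            coeff e (A'' ^ (p ^ (i + 1))))) := by
        intro i
        have hi := aux_le hp i
        rw [← map_pow, coeff_map, hag.pow hA hA'0 (by omega) e (by omega), e1, mul_pow, ← map_pow,
          coeff_C_mul]
        simp only [map_mul, map_pow, map_natCast]
        rw [← hb (i + 1)]
        have e2 : (p : K) ^ p ^ (i + 1) = p * (p : K) ^ (p ^ (i + 1) - (i + 2)) *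
            (p : K) ^ (i + 1) := by
          rw [← pow_succ', ← pow_add]
          congr 1
          omega
        rw [e2]
        ring
      rw [Finset.sum_congr rfl fun i _ => h2 i, ← map_sum, ← map_add] at h1
      have h3 := hφ h1
      rw [← Finset.mul_sum] at h3
      exact ⟨_, by rw [eq_sub_of_add_eq h3, ← mul_sub]⟩
  exact key N le_rfl

end Int

section Gen

variable {p : ℕ} {φ : B →+* K} {v : ℕ → B} {l : ℕ → K} {F : Law B}

/-- The logarithm on points. -/
noncomputable def IsHaz.lg (h : IsHaz p φ F v l) (τ : Type*) :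
    ZPt F.toFG τ →+ MvPowerSeries τ K :=
  AddMonoidHom.mk' (fun a => (PowerSeries.subst (a.val.map φ) (lser p l) : MvPowerSeries τ K))
    (by
      intro a b
      rw [ZPt.val_add, map_cons_subst φ F.toFG a.constantCoeff_val b.constantCoeff_val]
      refine h.log.subst_add ?_ ?_
      · rw [constantCoeff_map, a.constantCoeff_val, map_zero]
      · rw [constantCoeff_map, b.constantCoeff_val, map_zero])

theorem IsHaz.lg_apply (h : IsHaz p φ F v l) {τ : Type*} (a : ZPt F.toFG τ) :
    h.lg τ a = (PowerSeries.subst (a.val.map φ) (lser p l) : MvPowerSeries τ K) := rfl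

/-- Base change of points. -/
noncomputable def mapZ {C : Type*} [CommRing C] (ψ : B →+* C) (F : Law B) (τ : Type*) :
    ZPt F.toFG τ →+ ZPt (F.map ψ).toFG τ :=
  AddMonoidHom.mk' (fun a => ZPt.mk _ (a.val.map ψ) (by
      rw [constantCoeff_map, a.constantCoeff_val, map_zero]))
    (by
      intro a b
      apply ZPt.ext
      exact map_cons_subst ψ F.toFG a.constantCoeff_val b.constantCoeff_val)

theorem mapZ_val {C : Type*} [CommRing C] (ψ : B →+* C) {τ : Type*} (a : ZPt F.toFG τ) :
    (mapZ ψ F τ a).val = a.val.map ψ := rfl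

/-- The point `a x^k`, `k ≠ 0`. -/
noncomputable def mpt (F : Law B) (a : B) (k : ℕ) (hk : k ≠ 0) : ZPt F.toFG Unit :=
  ZPt.mk _ (PowerSeries.C a * PowerSeries.X ^ k : PowerSeries B) (by
    have : PowerSeries.constantCoeff (PowerSeries.C a * PowerSeries.X ^ k : PowerSeries B) = 0 := by
      rw [map_mul, map_pow, PowerSeries.constantCoeff_X, zero_pow hk, mul_zero]
    exact this)

theorem mpt_val (a : B) (k : ℕ) (hk : k ≠ 0) :
    (mpt F a k hk).val = (PowerSeries.C a * PowerSeries.X ^ k : PowerSeries B) := rfl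

theorem mapZ_mpt {C : Type*} [CommRing C] (ψ : B →+* C) (a : B) (k : ℕ) (hk : k ≠ 0) :
    mapZ ψ F Unit (mpt F a k hk) = mpt (F.map ψ) (ψ a) k hk := by
  apply ZPt.ext
  rw [mapZ_val, mpt_val, mpt_val]
  have : PowerSeries.map ψ (PowerSeries.C a * PowerSeries.X ^ k : PowerSeries B) =
      PowerSeries.C (ψ a) * PowerSeries.X ^ k := by
    rw [map_mul, map_pow, PowerSeries.map_C, PowerSeries.map_X]
  exact this

theorem mpt_zero (k : ℕ) (hk : k ≠ 0) : mpt F 0 k hk = 0 := by
  apply ZPt.ext
  rw [mpt_val, map_zero, zero_mul, ZPt.val_zero]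

/-- The logarithm of `a x^{p^j}`. -/
theorem coeff_lg_mpt (h : IsHaz p φ F v l) (hp : 2 ≤ p) (a : B) (j : ℕ) (hk : p ^ j ≠ 0) (d : ℕ) :
    PowerSeries.coeff d (h.lg Unit (mpt F a (p ^ j) hk) : PowerSeries K) =
      ∑ i ∈ Finset.range (d + 1), if d = p ^ (j + i) then l i * φ a ^ p ^ i else 0 := by
  rw [h.lg_apply]
  have h0 : constantCoeff ((mpt F a (p ^ j) hk).val.map φ) = 0 := by
    rw [constantCoeff_map, ZPt.constantCoeff_val, map_zero]
  have h1 := coeff_subst_lser hp l h0 (Finsupp.single () d) (M := d + 1) (by simp)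
  refine h1.trans (Finset.sum_congr rfl fun i _ => ?_)
  have h2 : (mpt F a (p ^ j) hk).val.map φ =
      (PowerSeries.C (φ a) * PowerSeries.X ^ p ^ j : PowerSeries K) := by
    rw [← mapZ_val, mapZ_mpt]
    rfl
  have h3 : ((PowerSeries.C (φ a) * PowerSeries.X ^ p ^ j : PowerSeries K)) ^ p ^ i =
      PowerSeries.C (φ a ^ p ^ i) * PowerSeries.X ^ p ^ (j + i) := by
    rw [mul_pow, ← map_pow, ← pow_mul, ← pow_add]
  rw [h2]
  have h4 : coeff (Finsupp.single () d)
      ((PowerSeries.C (φ a) * PowerSeries.X ^ p ^ j : PowerSeries K) ^ p ^ i) =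
      if d = p ^ (j + i) then φ a ^ p ^ i else 0 := by
    rw [h3]
    have : PowerSeries.coeff d (PowerSeries.C (φ a ^ p ^ i) * PowerSeries.X ^ p ^ (j + i) :
        PowerSeries K) = if d = p ^ (j + i) then φ a ^ p ^ i else 0 := by
      rw [PowerSeries.coeff_C_mul, PowerSeries.coeff_X_pow]
      split_ifs <;> simp
    exact this
  rw [h4]
  split_ifs <;> simp

/-- `[p](x) - ∑_{j ≤ n} v_j x^{p^j}`. -/
noncomputable def wpt (p : ℕ) (hp0 : p ≠ 0) (F : Law B) (v : ℕ → B) (n : ℕ) : ZPt F.toFG Unit :=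
  p • mpt F 1 (p ^ 0) (pow_ne_zero _ hp0) -
    ∑ j ∈ Finset.range n, mpt F (v (j + 1)) (p ^ (j + 1)) (pow_ne_zero _ hp0)

theorem coeff_lg_wpt (h : IsHaz p φ F v l) (hp : 2 ≤ p) (n d : ℕ) (hd : d < p ^ (n + 1)) :
    PowerSeries.coeff d (h.lg Unit (wpt p (by omega) F v n) : PowerSeries K) =
      φ (p * if d = 1 then 1 else 0) := by
  have h1 : (h.lg Unit (wpt p (by omega) F v n) : PowerSeries K) =
      p • (h.lg Unit (mpt F 1 (p ^ 0) (pow_ne_zero _ (by omega))) : PowerSeries K) -
        ∑ j ∈ Finset.range n, (h.lg Unit (mpt F (v (j + 1)) (p ^ (j + 1))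
          (pow_ne_zero _ (by omega))) : PowerSeries K) := by
    rw [wpt, map_sub, map_nsmul, map_sum]
  rw [h1, map_sub, map_nsmul, map_sum, coeff_lg_mpt h hp]
  rw [Finset.sum_congr rfl fun j _ => coeff_lg_mpt h hp (v (j + 1)) (j + 1) _ d]
  by_cases hdp : ∃ m, d = p ^ m
  · obtain ⟨m, rfl⟩ := hdp
    have hinj : ∀ a b : ℕ, p ^ a = p ^ b ↔ a = b := fun a b =>
      (Nat.pow_right_injective hp).eq_iff
    have hm : m < n + 1 := (Nat.pow_lt_pow_iff_right (by omega)).1 hd
    have hmp : m < p ^ m := Nat.lt_pow_self (by omega)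
    have e1 : ∑ i ∈ Finset.range (p ^ m + 1), (if p ^ m = p ^ (0 + i) then
        l i * φ 1 ^ p ^ i else 0) = l m := by
      rw [Finset.sum_eq_single m]
      · simp
      · intro i _ hi
        rw [if_neg]
        rw [hinj]
        omega
      · intro hh
        exact absurd (Finset.mem_range.2 (by omega)) hh
    have e2 : ∀ j, ∑ i ∈ Finset.range (p ^ m + 1), (if p ^ m = p ^ (j + 1 + i) then
        l i * φ (v (j + 1)) ^ p ^ i else 0) =
        if j < m then l (m - 1 - j) * φ (v (j + 1)) ^ p ^ (m - 1 - j) else 0 := by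
      intro j
      split_ifs with hj
      · rw [Finset.sum_eq_single (m - 1 - j)]
        · rw [if_pos]
          rw [hinj]
          omega
        · intro i _ hi
          rw [if_neg]
          rw [hinj]
          omega
        · intro hh
          exact absurd (Finset.mem_range.2 (by omega)) hh
      · refine Finset.sum_eq_zero fun i _ => ?_
        rw [if_neg]
        rw [hinj]
        omega
    rw [e1, Finset.sum_congr rfl fun j _ => e2 j]
    rcases Nat.eq_zero_or_pos m with rfl | hm0
    · rw [h.rel.1, Finset.sum_eq_zero fun j _ => by rw [if_neg (by omega)]]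
      simp
    · have hne : p ^ m ≠ 1 := by
        intro hh
        have := Nat.one_lt_pow (by omega : m ≠ 0) (by omega : 1 < p)
        omega
      rw [if_neg hne, mul_zero, map_zero, nsmul_eq_mul, h.rel.2 m hm0, sub_eq_zero]
      have e3 : ∑ j ∈ Finset.range n, (if j < m then
          l (m - 1 - j) * φ (v (j + 1)) ^ p ^ (m - 1 - j) else 0) =
          ∑ j ∈ Finset.range m, l (m - 1 - j) * φ (v (j + 1)) ^ p ^ (m - 1 - j) := by
        rw [← Finset.sum_filter]
        congr 1
        ext j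
        simp only [Finset.mem_filter, Finset.mem_range]
        omega
      rw [e3, ← Finset.sum_range_reflect]
      refine Finset.sum_congr rfl fun j hj => ?_
      have := Finset.mem_range.1 hj
      have e4 : m - (m - 1 - j) = j + 1 := by omega
      rw [e4]
  · push Not at hdp
    have e1 : ∀ (f : ℕ → K) (j : ℕ), ∑ i ∈ Finset.range (d + 1), (if d = p ^ (j + i) then
        f i else 0) = 0 := fun f j => Finset.sum_eq_zero fun i _ => if_neg (hdp _)
    have hd1 : d ≠ 1 := by simpa using hdp 0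
    rw [e1 (fun i => l i * φ 1 ^ p ^ i)]
    rw [Finset.sum_eq_zero fun j _ => e1 (fun i => l i * φ (v (j + 1)) ^ p ^ i) (j + 1),
      if_neg hd1]
    simp

/-- `[p](x) = ∑^F_{j ≤ n} v_j x^{p^j}` modulo `p` and `x^{p^{n+1}}`. -/
theorem dvd_coeff_wpt (h : IsHaz p φ F v l) (hφ : Function.Injective φ) (hp : 2 ≤ p) (n d : ℕ)
    (hd : d < p ^ (n + 1)) :
    (p : B) ∣ PowerSeries.coeff d ((wpt p (by omega) F v n).val : PowerSeries B) := by
  refine dvd_of_log hφ hp h.rel (ZPt.constantCoeff_val _)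
    (fun e : Unit →₀ ℕ => if e () = 1 then 1 else 0) (p ^ (n + 1)) (fun e he => ?_)
    (Finsupp.single () d) (by simpa using hd)
  have h1 : e = Finsupp.single () (e ()) := by
    ext
    simp
  have h2 : e () < p ^ (n + 1) := by
    rw [h1] at he
    simpa using he
  rw [h1]
  simp only [Finsupp.single_eq_same]
  exact coeff_lg_wpt h hp n (e ()) h2

/-- **The `p`-series modulo `(p, v_1, …, v_{n-1})`** is `v_n x^{p^n}` up to degree `p^{n+1}`. -/
theorem coeff_multSeries_sub_mem (h : IsHaz p φ F v l) (hφ : Function.Injective φ) (hp : 2 ≤ p)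
    {n : ℕ} (hn : 0 < n) (J : Ideal B) (hpJ : (p : B) ∈ J) (hv : ∀ i, 0 < i → i < n → v i ∈ J)
    (d : ℕ) (hd : d < p ^ (n + 1)) :
    PowerSeries.coeff d (multSeries F.toFG p) - (if d = p ^ n then v n else 0) ∈ J := by
  obtain ⟨m, rfl⟩ : ∃ m, n = m + 1 := ⟨n - 1, by omega⟩
  have hp0 : p ≠ 0 := by omega
  set ψ := Ideal.Quotient.mk J with hψ
  have e1 : p • mpt F 1 (p ^ 0) (pow_ne_zero _ hp0) = wpt p hp0 F v (m + 1) +
      ∑ j ∈ Finset.range (m + 1), mpt F (v (j + 1)) (p ^ (j + 1)) (pow_ne_zero _ hp0) :=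
    (sub_add_cancel _ _).symm
  have e2 : p • mpt (F.map ψ) 1 (p ^ 0) (pow_ne_zero _ hp0) =
      mapZ ψ F Unit (wpt p hp0 F v (m + 1)) +
        mpt (F.map ψ) (ψ (v (m + 1))) (p ^ (m + 1)) (pow_ne_zero _ hp0) := by
    have := congrArg (mapZ ψ F Unit) e1
    rw [map_nsmul, mapZ_mpt, map_one, map_add, map_sum, Finset.sum_range_succ, mapZ_mpt] at this
    rw [this]
    congr 1
    rw [Finset.sum_eq_zero, zero_add]
    intro j hj
    rw [mapZ_mpt, (Ideal.Quotient.eq_zero_iff_mem).2 (hv (j + 1) (by omega) (by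
      have := Finset.mem_range.1 hj; omega)), mpt_zero]
  have e3 := congrArg ZPt.val e2
  rw [ZPt.val_nsmul, ZPt.val_add] at e3
  have e4 : (PowerSeries.subst (mpt (F.map ψ) 1 (p ^ 0) (pow_ne_zero _ hp0)).val
      (multSeries (F.map ψ).toFG p) : PowerSeries (B ⧸ J)) =
        multSeries (F.map ψ).toFG p := by
    rw [mpt_val, map_one, one_mul, pow_zero, pow_one]
    exact PowerSeries.X_subst _
  have e5 : F3.EqMod (p ^ (m + 1 + 1)) (mapZ ψ F Unit (wpt p hp0 F v (m + 1))).val 0 := by
    intro e he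
    have h1 : e = Finsupp.single () (e ()) := by
      ext
      simp
    have h2 : e () < p ^ (m + 1 + 1) := by
      rw [h1] at he
      simpa using he
    have h3 : coeff e (0 : MvPowerSeries Unit (B ⧸ J)) = 0 := coeff_zero e
    rw [h3, h1, mapZ_val, coeff_map, Ideal.Quotient.eq_zero_iff_mem]
    exact Ideal.mem_of_dvd _ (dvd_coeff_wpt h hφ hp (m + 1) (e ()) h2) hpJ
  have hb0 := ZPt.constantCoeff_val (mpt (F.map ψ) (ψ (v (m + 1))) (p ^ (m + 1))
    (pow_ne_zero _ hp0))
  have e6 : F3.EqMod (p ^ (m + 1 + 1)) ((F.map ψ).toFG.toPowerSeries.subst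
      ![(mapZ ψ F Unit (wpt p hp0 F v (m + 1))).val,
        (mpt (F.map ψ) (ψ (v (m + 1))) (p ^ (m + 1)) (pow_ne_zero _ hp0)).val])
      (mpt (F.map ψ) (ψ (v (m + 1))) (p ^ (m + 1)) (pow_ne_zero _ hp0)).val := by
    refine (F3.EqMod.subst_right (hasSubst_cons (ZPt.constantCoeff_val _) hb0)
      (hasSubst_cons (map_zero _) hb0) _
      (F3.eqMod_pair e5 (F3.EqMod.refl _ _))).trans ?_
    have := congrArg ZPt.val (ZPt.zero_add' (mpt (F.map ψ) (ψ (v (m + 1))) (p ^ (m + 1))
      (pow_ne_zero _ hp0)))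
    rw [ZPt.val_add, ZPt.val_zero] at this
    rw [this]
    exact F3.EqMod.refl _ _
  rw [← Ideal.Quotient.eq_zero_iff_mem, map_sub, sub_eq_zero]
  have e7 : ψ (PowerSeries.coeff d (multSeries F.toFG p)) =
      PowerSeries.coeff d (multSeries (F.map ψ).toFG p) := by
    rw [Law.map_toFG, ← map_multSeries, PowerSeries.coeff_map]
  have e8 := e6 (Finsupp.single () d) (by simpa using hd)
  rw [← e3] at e8
  have e9 : PowerSeries.coeff d (multSeries (F.map ψ).toFG p) =
      PowerSeries.coeff d (PowerSeries.C (ψ (v (m + 1))) * PowerSeries.X ^ p ^ (m + 1)) := by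
    rw [← e4]
    exact e8
  rw [← hψ, e7, e9, PowerSeries.coeff_C_mul, PowerSeries.coeff_X_pow]
  split_ifs <;> simp

/-- `p, v_1, v_2, …`. -/
def hv (p : ℕ) (v : ℕ → B) (i : ℕ) : B := if i = 0 then p else v i

/-- The ideal `(p, v_1, …, v_{n-1})` of Hazewinkel generators. -/
def hI (p : ℕ) (v : ℕ → B) (n : ℕ) : Ideal B := Ideal.span {x | ∃ i < n, hv p v i = x}

theorem hv_mem {v : ℕ → B} {i n : ℕ} (hi : i < n) : hv p v i ∈ hI p v n :=
  Ideal.subset_span ⟨i, hi, rfl⟩

/-- `v_n` is the coefficient of `x^{p^n}` modulo `(p, v_1, …, v_{n-1})`. -/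
theorem IsHaz.vv_sub_mem (h : IsHaz p φ F v l) (hφ : Function.Injective φ) (hp : 2 ≤ p) (n : ℕ) :
    vv p n F - hv p v n ∈ hI p v n := by
  rcases Nat.eq_zero_or_pos n with rfl | hn
  · rw [vv_zero, hv, if_pos rfl, sub_self]
    exact zero_mem _
  have h1 := coeff_multSeries_sub_mem h hφ hp hn (hI p v n) (hv_mem (i := 0) hn)
    (fun i hi hin => by
      have := hv_mem (p := p) (v := v) hin
      rwa [hv, if_neg (by omega)] at this) (p ^ n) (Nat.pow_lt_pow_right (by omega) (by omega))
  rw [if_pos rfl] at h1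
  rw [hv, if_neg (by omega)]
  exact h1

/-- **Hazewinkel's ideals are the ideals of the `p`-series.** -/
theorem IsHaz.Ih_eq (h : IsHaz p φ F v l) (hφ : Function.Injective φ) (hp : 2 ≤ p) (n : ℕ) :
    Ih p n F = hI p v n := by
  have hsplit : ∀ (f : ℕ → B) (n : ℕ), Ideal.span {x | ∃ i < n + 1, f i = x} =
      Ideal.span {x | ∃ i < n, f i = x} ⊔ Ideal.span {f n} := by
    intro f n
    rw [← Ideal.span_union]
    congr 1
    ext x
    constructor
    · rintro ⟨i, hi, rfl⟩
      rcases Nat.lt_succ_iff_lt_or_eq.1 hi with h | rfl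
      · exact Or.inl ⟨i, h, rfl⟩
      · exact Or.inr rfl
    · rintro (⟨i, hi, rfl⟩ | hx)
      · exact ⟨i, by omega, rfl⟩
      · exact ⟨n, by omega, hx.symm⟩
  induction n with
  | zero => simp [Ih, hI]
  | succ n ih =>
    have h1 := h.vv_sub_mem hφ hp n
    rw [Ih, hI, hsplit (fun i => vv p i F), hsplit (hv p v)]
    rw [Ih, hI] at ih
    rw [hI] at h1
    rw [ih]
    refine le_antisymm (sup_le le_sup_left ?_) (sup_le le_sup_left ?_)
    · rw [Ideal.span_singleton_le_iff_mem]
      have h2 : vv p n F - hv p v n ∈ Ideal.span {x | ∃ i < n, hv p v i = x} ⊔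
          Ideal.span {hv p v n} := Submodule.mem_sup_left h1
      have h3 : hv p v n ∈ Ideal.span {x | ∃ i < n, hv p v i = x} ⊔
          Ideal.span {hv p v n} := Submodule.mem_sup_right (Ideal.mem_span_singleton_self _)
      have := Ideal.add_mem _ h2 h3
      rwa [sub_add_cancel] at this
    · rw [Ideal.span_singleton_le_iff_mem]
      have h2 : vv p n F - hv p v n ∈ Ideal.span {x | ∃ i < n, hv p v i = x} ⊔
          Ideal.span {vv p n F} := Submodule.mem_sup_left h1
      have h3 : vv p n F ∈ Ideal.span {x | ∃ i < n, hv p v i = x} ⊔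
          Ideal.span {vv p n F} := Submodule.mem_sup_right (Ideal.mem_span_singleton_self _)
      have := Ideal.sub_mem _ h3 h2
      rwa [sub_sub_cancel] at this

end Gen

end Vale.Agent.P257.V4.S.Haz
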