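import Vale.Agent.P251.F.Honda
import Vale.Agent.P251.F.VGen

/-!
# P257, V(4), block S: the functional equation lemma

`S ⊂ L` rings, `σ` an endomorphism of both with `σ a ≡ a ^ p` modulo `p` on `S`, elements
`v 0, v 1, …` of `S` (`v i` stands for `v_{i+1}`) and `l 0 = 1, l 1, …` in `L` with
`p l_{n+1} = ∑_{i ≤ n} v_{i+1} σ^{i+1} (l_{n-i})`. Then there is a commutative formal group law
over `S` with logarithm `∑ l_n x ^ (p ^ n)`.
-/

namespace Vale.Agent.P257.V4.S

open MvPowerSeries Finsupp Vale.Agent.P217 Vale.Agent.P251.F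

section General

variable {p : ℕ} [hp : Fact p.Prime] {S L k : Type*} [CommRing S] [CommRing L] [CommRing k]
  [CharP k p]

/-- The hypotheses of the functional equation lemma. -/
structure FE (p : ℕ) {S L k : Type*} [CommRing S] [CommRing L] [CommRing k]
    (ι : S →+* L) (π : S →+* k) (σ : S →+* S) (σL : L →+* L) (v : ℕ → S) (l : ℕ → L) :
    Prop where
  inj : Function.Injective ι
  ker : ∀ a, π a = 0 → (p : S) ∣ a
  frob : ∀ a, π (σ a) = π a ^ p
  comp : ∀ a, σL (ι a) = ι (σ a)
  zero : l 0 = 1
  rec' : ∀ n, (p : L) * l (n + 1) =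
    ∑ i ∈ Finset.range (n + 1), ι (v i) * (σL ^ (i + 1)) (l (n - i))
  reg : ∀ x y : L, (p : L) * x = p * y → x = y

variable {ι : S →+* L} {π : S →+* k} {σ : S →+* S} {σL : L →+* L} {v : ℕ → S} {l : ℕ → L}

theorem FE.comp_pow (h : FE p ι π σ σL v l) (j : ℕ) (a : S) :
    (σL ^ j) (ι a) = ι ((σ ^ j) a) := by
  induction j generalizing a with
  | zero => rfl
  | succ j ih =>
    rw [pow_succ, pow_succ, RingHom.mul_def, RingHom.mul_def, RingHom.comp_apply,
      RingHom.comp_apply, h.comp, ih]

theorem FE.frob_pow (h : FE p ι π σ σL v l) (j : ℕ) (a : S) :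
    π ((σ ^ j) a) = π a ^ (p ^ j) := by
  induction j generalizing a with
  | zero => simp
  | succ j ih =>
    rw [pow_succ, RingHom.mul_def, RingHom.comp_apply, ih, h.frob, ← pow_mul, ← pow_succ']

/-- denominators -/
theorem FE.denom (h : FE p ι π σ σL v l) (n : ℕ) : ∃ z : S, (p : L) ^ n * l n = ι z := by
  induction n using Nat.strong_induction_on with
  | _ n ih =>
    cases n with
    | zero => exact ⟨1, by rw [pow_zero, one_mul, h.zero, map_one]⟩
    | succ n =>
      have h1 : ∀ i : ℕ, ∃ z : S, i < n + 1 →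
          (p : L) ^ n * (ι (v i) * (σL ^ (i + 1)) (l (n - i))) = ι z := by
        intro i
        by_cases hi : i < n + 1
        · obtain ⟨z, hz⟩ := ih (n - i) (by omega)
          refine ⟨v i * (p : S) ^ i * (σ ^ (i + 1)) z, fun _ => ?_⟩
          have h2 : (p : L) ^ (n - i) * (σL ^ (i + 1)) (l (n - i)) = ι ((σ ^ (i + 1)) z) := by
            rw [← h.comp_pow, ← hz, map_mul, map_pow, map_natCast]
          have h3 : (p : L) ^ n = (p : L) ^ i * (p : L) ^ (n - i) := by
            rw [← pow_add]
            congr 1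
            omega
          rw [map_mul, map_mul, map_pow, map_natCast, ← h2, h3]
          ring
        · exact ⟨0, fun h' => absurd h' hi⟩
      choose z hz using h1
      refine ⟨∑ i ∈ Finset.range (n + 1), z i, ?_⟩
      rw [pow_succ, mul_assoc, h.rec', Finset.mul_sum, map_sum]
      exact Finset.sum_congr rfl fun i hi => hz i (Finset.mem_range.1 hi)

theorem FE.denom' (h : FE p ι π σ σL v l) (n j : ℕ) :
    ∃ z : S, (p : L) ^ n * (σL ^ j) (l n) = ι z := by
  obtain ⟨z, hz⟩ := h.denom n
  refine ⟨(σ ^ j) z, ?_⟩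
  rw [← h.comp_pow, ← hz, map_mul, map_pow, map_natCast]

variable {τ : Type*}

theorem FE.cong (h : FE p ι π σ σL v l) (i : ℕ) (hi : p ^ i ≠ 0) (A : MvPowerSeries τ S)
    (e : τ →₀ ℕ) : (p : S) ∣ coeff e (MvPowerSeries.expand (p ^ i) hi
      (MvPowerSeries.map (σ ^ i) A)) - coeff e (A ^ (p ^ i)) := by
  have hp0 : p ≠ 0 := hp.out.ne_zero
  have h1 : MvPowerSeries.map π (MvPowerSeries.expand (p ^ i) hi
      (MvPowerSeries.map (σ ^ i) A)) = MvPowerSeries.map π (A ^ (p ^ i)) := by
    have h0 := map_iterateFrobenius_expand p hp0 (MvPowerSeries.map π A) i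
    have h2 : MvPowerSeries.map π (MvPowerSeries.map (σ ^ i) A) =
        MvPowerSeries.map (iterateFrobenius k p i) (MvPowerSeries.map π A) := by
      ext f
      rw [coeff_map, coeff_map, coeff_map, coeff_map, iterateFrobenius_def, h.frob_pow]
    rw [map_expand, h2, ← map_expand, map_pow, ← h0]
  apply h.ker
  have h3 := congrArg (coeff e) h1
  rw [coeff_map, coeff_map] at h3
  rw [map_sub, h3, sub_self]

theorem two_le_pow_succ (i : ℕ) : 2 ≤ p ^ (i + 1) := by
  calc 2 ≤ p := hp.out.two_le
    _ = p ^ 1 := (pow_one p).symm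
    _ ≤ p ^ (i + 1) := Nat.pow_le_pow_right hp.out.pos (by omega)

/-- Congruent arguments give congruent logarithms. -/
theorem FE.tail (h : FE p ι π σ σL v l) (j : ℕ) {A B : MvPowerSeries τ S}
    (hAB : ∀ e, (p : S) ∣ coeff e A - coeff e B)
    (hA : constantCoeff A = 0) (hB : constantCoeff B = 0) (e : τ →₀ ℕ) :
    ∃ z : S, coeff e (PowerSeries.subst (MvPowerSeries.map ι A)
        (lser p fun n => (σL ^ j) (l n)) : MvPowerSeries τ L) -
      coeff e (PowerSeries.subst (MvPowerSeries.map ι B)
        (lser p fun n => (σL ^ j) (l n)) : MvPowerSeries τ L) = (p : L) * ι z := by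
  have hA' : constantCoeff (MvPowerSeries.map ι A) = 0 := by
    rw [constantCoeff_map, hA, map_zero]
  have hB' : constantCoeff (MvPowerSeries.map ι B) = 0 := by
    rw [constantCoeff_map, hB, map_zero]
  rw [coeff_subst_lser hp.out.two_le _ hA' e (Nat.lt_succ_self _),
    coeff_subst_lser hp.out.two_le _ hB' e (Nat.lt_succ_self _), ← Finset.sum_sub_distrib]
  have h1 : ∀ n : ℕ, ∃ z : S, (σL ^ j) (l n) * coeff e (MvPowerSeries.map ι A ^ (p ^ n)) -
      (σL ^ j) (l n) * coeff e (MvPowerSeries.map ι B ^ (p ^ n)) = (p : L) * ι z := by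
    intro n
    obtain ⟨z, hz⟩ := h.denom' n j
    obtain ⟨w, hw⟩ := dvd_pow_sub_pow hAB n e
    refine ⟨z * w, ?_⟩
    rw [← map_pow, ← map_pow, coeff_map, coeff_map, ← mul_sub, ← map_sub, hw, map_mul, map_pow,
      map_natCast, map_mul, ← hz]
    ring
  choose z hz using h1
  refine ⟨∑ n ∈ Finset.range (degree e + 1), z n, ?_⟩
  rw [map_sum, Finset.mul_sum]
  exact Finset.sum_congr rfl fun n _ => hz n

theorem constantCoeff_subst_lser (c : ℕ → L) {A : MvPowerSeries τ L}
    (hA : constantCoeff A = 0) :
    constantCoeff (PowerSeries.subst A (lser p c) : MvPowerSeries τ L) = 0 := by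
  rw [← coeff_zero_eq_constantCoeff_apply,
    coeff_subst_lser hp.out.two_le c hA 0 (M := 1) (by simp)]
  simp [hA]

/-- `p ℓ(A) = p A + ∑ v_{i+1} ℓ^{(i+1)} (A^{p^{i+1}})` coefficientwise. -/
theorem FE.p_mul (h : FE p ι π σ σL v l) {A : MvPowerSeries τ L} (hA : constantCoeff A = 0)
    (e : τ →₀ ℕ) :
    (p : L) * coeff e (PowerSeries.subst A (lser p l) : MvPowerSeries τ L) =
      (p : L) * coeff e A + ∑ i ∈ Finset.range (degree e), ι (v i) *
        coeff e (PowerSeries.subst (A ^ (p ^ (i + 1)))
          (lser p fun n => (σL ^ (i + 1)) (l n)) : MvPowerSeries τ L) := by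
  have hq := hp.out.two_le
  have hA' : ∀ i : ℕ, constantCoeff (A ^ (p ^ (i + 1))) = 0 := by
    intro i
    rw [map_pow, hA, zero_pow (pow_pos hp.out.pos _).ne']
  set D := degree e with hD
  have hvan : ∀ n, D ≤ n → coeff e (A ^ (p ^ (n + 1))) = 0 := by
    intro n hn
    apply coeff_eq_zero_of_constantCoeff_nilpotent (m := 1) (by rw [hA]; simp)
    have := Nat.lt_pow_self (n := n + 1) hq
    omega
  rw [coeff_subst_lser' hq l h.zero hA, mul_add, Finset.mul_sum]
  congr 1
  set g : ℕ → ℕ → L := fun i m => ι (v i) * (σL ^ (i + 1)) (l m) *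
        coeff e (A ^ (p ^ (i + m + 1))) with hg
  have h1 : ∀ n ∈ Finset.range D, (p : L) * (l (n + 1) * coeff e (A ^ (p ^ (n + 1)))) =
      ∑ i ∈ Finset.range (n + 1), g i (n - i) := by
    intro n _
    rw [← mul_assoc, h.rec', Finset.sum_mul]
    refine Finset.sum_congr rfl fun i hi => ?_
    rw [Finset.mem_range] at hi
    have h2 : i + (n - i) + 1 = n + 1 := by omega
    simp only [hg, h2]
  rw [Finset.sum_congr rfl h1, Finset.sum_range_diag_flip D g]
  refine Finset.sum_congr rfl fun i hi => ?_
  rw [Finset.mem_range] at hi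
  rw [coeff_subst_lser hq _ (hA' i) e (Nat.lt_succ_self _), Finset.mul_sum]
  have h3 : Finset.range (D - i) ⊆ Finset.range (D + 1) := by
    intro x hx
    rw [Finset.mem_range] at hx ⊢
    omega
  rw [← Finset.sum_subset h3]
  · refine Finset.sum_congr rfl fun m _ => ?_
    have h4 : (A ^ (p ^ (i + 1))) ^ (p ^ m) = A ^ (p ^ (i + m + 1)) := by
      rw [← pow_mul, ← pow_add]
      congr 2
      omega
    rw [h4]
    ring
  · intro m _ hm
    rw [Finset.mem_range, not_lt] at hm
    have h4 : (A ^ (p ^ (i + 1))) ^ (p ^ m) = A ^ (p ^ (i + m + 1)) := by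
      rw [← pow_mul, ← pow_add]
      congr 2
      omega
    rw [h4, hvan _ (by omega), mul_zero, mul_zero]

theorem map_lser {L' : Type*} [CommRing L'] (φ : L →+* L') (c : ℕ → L) :
    PowerSeries.map φ (lser p c) = lser p fun n => φ (c n) := by
  ext m
  rw [PowerSeries.coeff_map, lser, lser, PowerSeries.coeff_mk, PowerSeries.coeff_mk, map_sum]
  refine Finset.sum_congr rfl fun i _ => ?_
  split_ifs
  · rfl
  · exact map_zero φ

theorem expand_map_subst {i : ℕ} (hi : p ^ i ≠ 0) {A : MvPowerSeries τ L}
    (hA : constantCoeff A = 0) (φ : L →+* L) (c : ℕ → L) :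
    MvPowerSeries.expand (p ^ i) hi (MvPowerSeries.map φ
      (PowerSeries.subst A (lser p c) : MvPowerSeries τ L)) =
      PowerSeries.subst (MvPowerSeries.expand (p ^ i) hi (MvPowerSeries.map φ A))
        (lser p fun n => φ (c n)) := by
  have hs : PowerSeries.HasSubst A := PowerSeries.HasSubst.of_constantCoeff_zero hA
  rw [PowerSeries.map_subst hs, map_lser]
  have hs' : PowerSeries.HasSubst (MvPowerSeries.map φ A) :=
    PowerSeries.HasSubst.of_constantCoeff_zero (by rw [constantCoeff_map, hA, map_zero])
  rw [PowerSeries.subst_def, PowerSeries.subst_def]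
  exact expand_subst (p ^ i) hi hs'.const

/-- **Integrality** of the solution of `ℓ(F) = ℓ(X) + ℓ(Y)`. -/
theorem FE.integral (h : FE p ι π σ σL v l) {F : MvPowerSeries (Fin 2) L}
    (hF0 : constantCoeff F = 0)
    (hF : (PowerSeries.subst F (lser p l) : MvPowerSeries (Fin 2) L) =
      PowerSeries.subst (X 0 : MvPowerSeries (Fin 2) L) (lser p l) +
        PowerSeries.subst (X 1 : MvPowerSeries (Fin 2) L) (lser p l)) :
    ∀ e, ∃ z : S, coeff e F = ι z := by
  classical
  have hq := hp.out.two_le
  have hq0 : ∀ i : ℕ, p ^ i ≠ 0 := fun i => (pow_pos hp.out.pos _).ne'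
  have key : ∀ d : ℕ, ∀ e : Fin 2 →₀ ℕ, degree e < d → ∃ z : S, coeff e F = ι z := by
    intro d
    induction d with
    | zero => intro e he; omega
    | succ d ih =>
      intro e he
      -- the truncated lift
      choose z hz using ih
      let Ft : MvPowerSeries (Fin 2) S := fun f => if h : degree f < d then z f h else 0
      have hFt : ∀ f, coeff f Ft = if h : degree f < d then z f h else 0 := fun _ => rfl
      have hFt0 : constantCoeff Ft = 0 := by
        rw [← coeff_zero_eq_constantCoeff_apply, hFt]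
        split_ifs with h'
        · apply h.inj
          rw [← hz, coeff_zero_eq_constantCoeff_apply, hF0, map_zero]
        · rfl
      have hagree : AgreeLT d (MvPowerSeries.map ι Ft) F := by
        intro f hf
        rw [coeff_map, hFt, dif_pos hf, hz f hf]
      have hFtQ0 : constantCoeff (MvPowerSeries.map ι Ft) = 0 := by
        rw [constantCoeff_map, hFt0, map_zero]
      -- for each index: the difference
      have hdiff : ∀ i : ℕ, ∃ z : S,
          coeff e (PowerSeries.subst (MvPowerSeries.expand (p ^ (i + 1)) (hq0 _)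
            (MvPowerSeries.map (σL ^ (i + 1)) F)) (lser p fun n => (σL ^ (i + 1)) (l n)) :
              MvPowerSeries (Fin 2) L) -
          coeff e (PowerSeries.subst (F ^ (p ^ (i + 1)))
            (lser p fun n => (σL ^ (i + 1)) (l n)) : MvPowerSeries (Fin 2) L) =
          (p : L) * ι z := by
        intro i
        set A : MvPowerSeries (Fin 2) S := MvPowerSeries.expand (p ^ (i + 1)) (hq0 _)
          (MvPowerSeries.map (σ ^ (i + 1)) Ft) with hAdef
        set B : MvPowerSeries (Fin 2) S := Ft ^ (p ^ (i + 1)) with hBdef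
        have hA0 : constantCoeff A = 0 := by
          rw [hAdef, constantCoeff_expand, constantCoeff_map, hFt0, map_zero]
        have hB0 : constantCoeff B = 0 := by rw [hBdef, map_pow, hFt0, zero_pow (hq0 _)]
        have hmc : MvPowerSeries.map ι (MvPowerSeries.map (σ ^ (i + 1)) Ft) =
            MvPowerSeries.map (σL ^ (i + 1)) (MvPowerSeries.map ι Ft) := by
          ext f
          rw [coeff_map, coeff_map, coeff_map, coeff_map, h.comp_pow]
        have hAQ : MvPowerSeries.map ι A = MvPowerSeries.expand (p ^ (i + 1)) (hq0 _)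
            (MvPowerSeries.map (σL ^ (i + 1)) (MvPowerSeries.map ι Ft)) := by
          rw [hAdef, map_expand, hmc]
        have hBQ : MvPowerSeries.map ι B = MvPowerSeries.map ι Ft ^ (p ^ (i + 1)) := by
          rw [hBdef, map_pow]
        have hA0' : constantCoeff (MvPowerSeries.map ι A) = 0 := by
          rw [constantCoeff_map, hA0, map_zero]
        have hB0' : constantCoeff (MvPowerSeries.map ι B) = 0 := by
          rw [constantCoeff_map, hB0, map_zero]
        have hmF0 : constantCoeff (MvPowerSeries.map (σL ^ (i + 1)) F) = 0 := by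
          rw [constantCoeff_map, hF0, map_zero]
        have hmFt0 : constantCoeff (MvPowerSeries.map (σL ^ (i + 1))
            (MvPowerSeries.map ι Ft)) = 0 := by
          rw [constantCoeff_map, hFtQ0, map_zero]
        have hmagree : AgreeLT d (MvPowerSeries.map (σL ^ (i + 1)) (MvPowerSeries.map ι Ft))
            (MvPowerSeries.map (σL ^ (i + 1)) F) := by
          intro f hf
          rw [coeff_map, hagree f hf, coeff_map]
        have hFe0 : constantCoeff (MvPowerSeries.expand (p ^ (i + 1)) (hq0 _)
            (MvPowerSeries.map (σL ^ (i + 1)) F)) = 0 := by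
          rw [constantCoeff_expand, hmF0]
        have hFq0 : constantCoeff (F ^ (p ^ (i + 1))) = 0 := by
          rw [map_pow, hF0, zero_pow (hq0 _)]
        have h1 : coeff e (PowerSeries.subst (MvPowerSeries.expand (p ^ (i + 1)) (hq0 _)
              (MvPowerSeries.map (σL ^ (i + 1)) F)) (lser p fun n => (σL ^ (i + 1)) (l n)) :
                MvPowerSeries (Fin 2) L) =
            coeff e (PowerSeries.subst (MvPowerSeries.map ι A)
              (lser p fun n => (σL ^ (i + 1)) (l n)) : MvPowerSeries (Fin 2) L) := by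
          refine (AgreeLT.lser hq _ (d := d + 1) ?_ hFe0 hA0') e he
          rw [hAQ]
          intro f hf
          exact (hmagree.expand (two_le_pow_succ i) hmFt0 hmF0 f hf).symm
        have h2 : coeff e (PowerSeries.subst (F ^ (p ^ (i + 1)))
              (lser p fun n => (σL ^ (i + 1)) (l n)) : MvPowerSeries (Fin 2) L) =
            coeff e (PowerSeries.subst (MvPowerSeries.map ι B)
              (lser p fun n => (σL ^ (i + 1)) (l n)) : MvPowerSeries (Fin 2) L) := by
          refine (AgreeLT.lser hq _ (d := d + 1) ?_ hFq0 hB0') e he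
          rw [hBQ]
          intro f hf
          exact (hagree.pow hFtQ0 hF0 (two_le_pow_succ i) f hf).symm
        rw [h1, h2]
        exact h.tail (i + 1) (fun f => h.cong (i + 1) (hq0 _) Ft f) hA0 hB0 e
      choose w hw using hdiff
      -- the main equation
      have h3 := h.p_mul hF0 e
      have h4' : ∀ i : ℕ, PowerSeries.subst (MvPowerSeries.expand (p ^ (i + 1)) (hq0 _)
            (MvPowerSeries.map (σL ^ (i + 1)) F)) (lser p fun n => (σL ^ (i + 1)) (l n)) =
          (PowerSeries.subst ((X 0 : MvPowerSeries (Fin 2) L) ^ (p ^ (i + 1)))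
              (lser p fun n => (σL ^ (i + 1)) (l n)) +
            PowerSeries.subst ((X 1 : MvPowerSeries (Fin 2) L) ^ (p ^ (i + 1)))
              (lser p fun n => (σL ^ (i + 1)) (l n)) : MvPowerSeries (Fin 2) L) := by
        intro i
        rw [← expand_map_subst (hq0 _) hF0, hF, map_add, map_add,
          expand_map_subst (hq0 _) (constantCoeff_X 0),
          expand_map_subst (hq0 _) (constantCoeff_X 1), map_X, map_X, expand_X, expand_X]
      have h4 : (p : L) * coeff e (PowerSeries.subst F (lser p l) : MvPowerSeries (Fin 2) L) =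
          (p : L) * coeff e (X 0 + X 1) + ∑ i ∈ Finset.range (degree e), ι (v i) *
            coeff e (PowerSeries.subst (MvPowerSeries.expand (p ^ (i + 1)) (hq0 _)
              (MvPowerSeries.map (σL ^ (i + 1)) F)) (lser p fun n => (σL ^ (i + 1)) (l n)) :
                MvPowerSeries (Fin 2) L) := by
        rw [hF, map_add, mul_add, h.p_mul (constantCoeff_X 0), h.p_mul (constantCoeff_X 1)]
        have h5 : ∀ i ∈ Finset.range (degree e), ι (v i) *
            coeff e (PowerSeries.subst (MvPowerSeries.expand (p ^ (i + 1)) (hq0 _)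
              (MvPowerSeries.map (σL ^ (i + 1)) F)) (lser p fun n => (σL ^ (i + 1)) (l n)) :
                MvPowerSeries (Fin 2) L) =
            ι (v i) * coeff e (PowerSeries.subst ((X 0 : MvPowerSeries (Fin 2) L) ^
              (p ^ (i + 1))) (lser p fun n => (σL ^ (i + 1)) (l n)) :
                MvPowerSeries (Fin 2) L) +
            ι (v i) * coeff e (PowerSeries.subst ((X 1 : MvPowerSeries (Fin 2) L) ^
              (p ^ (i + 1))) (lser p fun n => (σL ^ (i + 1)) (l n)) :
                MvPowerSeries (Fin 2) L) := by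
          intro i _
          rw [h4' i, map_add, mul_add]
        rw [Finset.sum_congr rfl h5, Finset.sum_add_distrib, map_add, mul_add]
        ring
      refine ⟨coeff e (X 0 + X 1 : MvPowerSeries (Fin 2) S) +
        ∑ i ∈ Finset.range (degree e), v i * w i, ?_⟩
      have h12 : (X 0 + X 1 : MvPowerSeries (Fin 2) L) =
          MvPowerSeries.map ι (X 0 + X 1 : MvPowerSeries (Fin 2) S) := by
        rw [map_add, map_X, map_X]
      apply h.reg
      rw [map_add, map_sum, mul_add, ← coeff_map, ← h12]
      have h6 : (p : L) * ∑ i ∈ Finset.range (degree e), ι (v i * w i) =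
          ∑ i ∈ Finset.range (degree e), (ι (v i) *
            coeff e (PowerSeries.subst (MvPowerSeries.expand (p ^ (i + 1)) (hq0 _)
              (MvPowerSeries.map (σL ^ (i + 1)) F)) (lser p fun n => (σL ^ (i + 1)) (l n)) :
                MvPowerSeries (Fin 2) L) -
            ι (v i) * coeff e (PowerSeries.subst (F ^ (p ^ (i + 1)))
              (lser p fun n => (σL ^ (i + 1)) (l n)) : MvPowerSeries (Fin 2) L)) := by
        rw [Finset.mul_sum]
        refine Finset.sum_congr rfl fun i _ => ?_
        rw [← mul_sub, hw i, map_mul]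
        ring
      rw [h6, Finset.sum_sub_distrib]
      linear_combination h4 - h3
  intro e
  exact key (degree e + 1) e (Nat.lt_succ_self _)

/-- additivity of the logarithm for general arguments. -/
theorem log_subst' {f : PowerSeries L} {F : MvPowerSeries (Fin 2) L}
    (hF0 : constantCoeff F = 0)
    (hF : (PowerSeries.subst F f : MvPowerSeries (Fin 2) L) =
      PowerSeries.subst (X 0 : MvPowerSeries (Fin 2) L) f +
        PowerSeries.subst (X 1 : MvPowerSeries (Fin 2) L) f)
    {a b : MvPowerSeries τ L} (ha : constantCoeff a = 0) (hb : constantCoeff b = 0) :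
    (PowerSeries.subst (MvPowerSeries.subst ![a, b] F) f : MvPowerSeries τ L) =
      PowerSeries.subst a f + PowerSeries.subst b f := by
  have hs : MvPowerSeries.HasSubst ![a, b] := by
    apply hasSubst_of_constantCoeff_zero
    intro i
    fin_cases i
    · exact ha
    · exact hb
  have h1 : ∀ (G : MvPowerSeries (Fin 2) L) (_ : constantCoeff G = 0),
      MvPowerSeries.subst ![a, b] (PowerSeries.subst G f : MvPowerSeries (Fin 2) L) =
      PowerSeries.subst (MvPowerSeries.subst ![a, b] G) f := by
    intro G hG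
    rw [PowerSeries.subst_def, PowerSeries.subst_def]
    exact subst_comp_subst_apply (PowerSeries.HasSubst.of_constantCoeff_zero hG).const hs _
  rw [← h1 F hF0, hF, subst_add hs, h1 _ (constantCoeff_X 0), h1 _ (constantCoeff_X 1),
    subst_X hs, subst_X hs]
  rfl

/-- **The functional equation lemma**: there is a commutative formal group law over `S` with
logarithm `∑ l_n x ^ (p ^ n)`. -/
theorem FE.exists_law (h : FE p ι π σ σL v l) :
    ∃ F : Law S, IsLog (F.map ι).toFG (lser p l) := by
  have hq := hp.out.two_le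
  obtain ⟨F, hF0, hF⟩ : ∃ F : MvPowerSeries (Fin 2) L, constantCoeff F = 0 ∧
      (PowerSeries.subst F (lser p l) : MvPowerSeries (Fin 2) L) =
        PowerSeries.subst (X 0 : MvPowerSeries (Fin 2) L) (lser p l) +
          PowerSeries.subst (X 1 : MvPowerSeries (Fin 2) L) (lser p l) := by
    refine lser_surjective hq l h.zero _ ?_
    rw [map_add, constantCoeff_subst_lser l (constantCoeff_X 0),
      constantCoeff_subst_lser l (constantCoeff_X 1), add_zero]
  have hint := h.integral hF0 hF
  choose z hz using hint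
  let toL : ∀ {τ : Type}, MvPowerSeries τ S → MvPowerSeries τ L :=
    fun {_} A => MvPowerSeries.map ι A
  let Hs : MvPowerSeries (Fin 2) S := fun e => z e
  have hHs : MvPowerSeries.map ι Hs = F := by
    ext e
    rw [coeff_map, hz e]
    rfl
  have hHs0 : constantCoeff Hs = 0 := by
    apply h.inj
    rw [← constantCoeff_map, map_zero]
    exact (congrArg _ hHs).trans hF0
  have hlin : ∀ i : Fin 2, coeff (single i 1) F = 1 := by
    intro i
    have hd : degree (single i 1 : Fin 2 →₀ ℕ) = 1 := by simp
    have h1 := congrArg (coeff (single i 1)) hF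
    rw [map_add, coeff_subst_lser_of_degree_one hq _ h.zero hF0 hd,
      coeff_subst_lser_of_degree_one hq _ h.zero (constantCoeff_X 0) hd,
      coeff_subst_lser_of_degree_one hq _ h.zero (constantCoeff_X 1) hd] at h1
    rw [h1]
    fin_cases i
    · simp [coeff_index_single_X]
    · simp [coeff_index_single_X]
  have hlin' : ∀ i : Fin 2, coeff (single i 1) Hs = 1 := by
    intro i
    apply h.inj
    rw [← coeff_map, map_one]
    exact (congrArg _ hHs).trans (hlin i)
  have hmap2 : ∀ (τ : Type) (a b : MvPowerSeries τ S), constantCoeff a = 0 →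
      constantCoeff b = 0 → MvPowerSeries.map ι (MvPowerSeries.subst ![a, b] Hs) =
        MvPowerSeries.subst ![MvPowerSeries.map ι a, MvPowerSeries.map ι b] F := by
    intro τ a b ha hb
    have hs : MvPowerSeries.HasSubst ![a, b] := by
      apply hasSubst_of_constantCoeff_zero
      intro i
      fin_cases i
      · exact ha
      · exact hb
    rw [map_subst hs]
    have h1 : (fun i => MvPowerSeries.map ι (![a, b] i)) =
        ![MvPowerSeries.map ι a, MvPowerSeries.map ι b] := by
      ext1 i
      fin_cases i <;> rfl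
    rw [h1]
    exact congrArg _ hHs
  have hc2 : ∀ (τ : Type) (a b : MvPowerSeries τ S), constantCoeff a = 0 →
      constantCoeff b = 0 → constantCoeff (MvPowerSeries.subst ![a, b] Hs) = 0 := by
    intro τ a b ha hb
    apply constantCoeff_subst_eq_zero
    · apply hasSubst_of_constantCoeff_zero
      intro i
      fin_cases i
      · exact ha
      · exact hb
    · intro i
      fin_cases i
      · exact ha
      · exact hb
    · exact hHs0
  have hQ0 : ∀ (τ : Type) (a : MvPowerSeries τ S), constantCoeff a = 0 →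
      constantCoeff (MvPowerSeries.map ι a) = 0 := by
    intro τ a ha
    rw [constantCoeff_map, ha, map_zero]
  have hinjQ : ∀ (τ : Type) (a b : MvPowerSeries τ S), MvPowerSeries.map ι a =
      MvPowerSeries.map ι b → a = b := by
    intro τ a b hab
    ext1 e
    apply h.inj
    rw [← coeff_map, ← coeff_map]
    exact congrArg _ hab
  let H : FormalGroup S :=
    { toPowerSeries := Hs
      zero_constantCoeff := hHs0
      lin_coeff_X := hlin' 0
      lin_coeff_Y := hlin' 1
      assoc := by
        have hX : ∀ i : Fin 3, constantCoeff (X i : MvPowerSeries (Fin 3) S) = 0 :=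
          fun i => constantCoeff_X i
        have h01 := hc2 (Fin 3) (X 0) (X 1) (hX 0) (hX 1)
        have h12 := hc2 (Fin 3) (X 1) (X 2) (hX 1) (hX 2)
        apply hinjQ
        rw [hmap2 _ _ _ h01 (hX 2), hmap2 _ _ _ (hX 0) h12, hmap2 _ _ _ (hX 0) (hX 1),
          hmap2 _ _ _ (hX 1) (hX 2)]
        have hA0 : constantCoeff (MvPowerSeries.subst
            ![MvPowerSeries.map ι (X 0 : MvPowerSeries (Fin 3) S),
            MvPowerSeries.map ι (X 1)] F) = 0 := by
          rw [← hmap2 _ _ _ (hX 0) (hX 1)]
          exact hQ0 _ _ h01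
        have hB0 : constantCoeff (MvPowerSeries.subst
            ![MvPowerSeries.map ι (X 1 : MvPowerSeries (Fin 3) S),
            MvPowerSeries.map ι (X 2)] F) = 0 := by
          rw [← hmap2 _ _ _ (hX 1) (hX 2)]
          exact hQ0 _ _ h12
        have hL0 : constantCoeff (MvPowerSeries.subst ![MvPowerSeries.subst
            ![MvPowerSeries.map ι (X 0 : MvPowerSeries (Fin 3) S),
            MvPowerSeries.map ι (X 1)] F, MvPowerSeries.map ι (X 2)] F) = 0 := by
          rw [← hmap2 _ _ _ (hX 0) (hX 1), ← hmap2 _ _ _ h01 (hX 2)]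
          exact hQ0 _ _ (hc2 _ _ _ h01 (hX 2))
        have hR0 : constantCoeff (MvPowerSeries.subst
            ![MvPowerSeries.map ι (X 0 : MvPowerSeries (Fin 3) S), MvPowerSeries.subst
            ![MvPowerSeries.map ι (X 1 : MvPowerSeries (Fin 3) S),
            MvPowerSeries.map ι (X 2)] F] F) = 0 := by
          rw [← hmap2 _ _ _ (hX 1) (hX 2), ← hmap2 _ _ _ (hX 0) h12]
          exact hQ0 _ _ (hc2 _ _ _ (hX 0) h12)
        apply lser_injective hq l h.zero hL0 hR0
        rw [log_subst' hF0 hF hA0 (hQ0 _ _ (hX 2)),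
          log_subst' hF0 hF (hQ0 _ _ (hX 0)) (hQ0 _ _ (hX 1)),
          log_subst' hF0 hF (hQ0 _ _ (hX 0)) hB0,
          log_subst' hF0 hF (hQ0 _ _ (hX 1)) (hQ0 _ _ (hX 2)), add_assoc] }
  have hlog : IsLog (H.map ι) (lser p l) := by
    refine ⟨?_, ?_, ?_⟩
    · rw [← PowerSeries.coeff_zero_eq_constantCoeff_apply]
      exact coeff_lser_of_ne l fun i => (pow_pos hp.out.pos _).ne
    · have h1 := coeff_lser_pow hq l 0
      rw [pow_zero] at h1
      rw [h1, h.zero]
      exact isUnit_one
    · have h1 : (H.map ι).toPowerSeries = F := hHs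
      rw [h1]
      exact hF
  have hcomm : H.IsComm := ⟨by
    have h1 := hlog.isComm.comm
    have h2 : (H.map ι).toPowerSeries = MvPowerSeries.map ι
        (H.toPowerSeries.subst ![(X 1 : MvPowerSeries (Fin 2) S), X 0]) := by
      rw [map_cons_subst _ H (by simp) (by simp), map_X, map_X]
      exact h1
    exact hinjQ _ _ _ h2⟩
  exact ⟨⟨H, hcomm⟩, hlog⟩

end General

end Vale.Agent.P257.V4.S
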