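import Vale.Agent.P257.V4.S.HazFE
import Mathlib.FieldTheory.Finite.Polynomial
import Mathlib.Algebra.MvPolynomial.Expand
import Mathlib.RingTheory.MvPolynomial.Basic

/-!
# P257, V(4), block S: the Hazewinkel law

`w i` stands for the Hazewinkel generator `v_{i+1}`. The logarithm is `∑ l_n x ^ (p ^ n)` with
`l_0 = 1`, `p l_{n+1} = ∑_{i ≤ n} l_i v_{n+1-i} ^ (p ^ i)`.
-/

namespace Vale.Agent.P257.V4.S

open MvPowerSeries Finsupp Vale.Agent.P217 Vale.Agent.P251.F

section Rec

variable {p : ℕ} {L : Type*} [CommRing L]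

/-- `l` are the coefficients of the logarithm with Hazewinkel generators `v_{i+1} = w i`. -/
structure IsHazLog (p : ℕ) (w : ℕ → L) (l : ℕ → L) : Prop where
  zero : l 0 = 1
  succ : ∀ n, (p : L) * l (n + 1) = ∑ i ∈ Finset.range (n + 1), l i * w (n - i) ^ (p ^ i)

theorem IsHazLog.map {L' : Type*} [CommRing L'] (φ : L →+* L') {w l : ℕ → L}
    (h : IsHazLog p w l) : IsHazLog p (fun i => φ (w i)) (fun i => φ (l i)) where
  zero := by simp only [h.zero, map_one]
  succ n := by
    have h1 := congrArg φ (h.succ n)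
    rw [map_mul, map_natCast, map_sum] at h1
    rw [h1]
    exact Finset.sum_congr rfl fun i _ => by rw [map_mul, map_pow]

theorem IsHazLog.unique {w l l' : ℕ → L} (h : IsHazLog p w l) (h' : IsHazLog p w l')
    (reg : ∀ x y : L, (p : L) * x = p * y → x = y) : l = l' := by
  funext n
  induction n using Nat.strong_induction_on with
  | _ n ih =>
    cases n with
    | zero => rw [h.zero, h'.zero]
    | succ n =>
      apply reg
      rw [h.succ, h'.succ]
      exact Finset.sum_congr rfl fun i hi => by rw [ih i (Finset.mem_range.1 hi)]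

/-- The solution of the recursion over a `ℚ`-algebra. -/
noncomputable def hazL (p : ℕ) {K : Type*} [CommRing K] [Algebra ℚ K] (w : ℕ → K) : ℕ → K
  | 0 => 1
  | n + 1 => algebraMap ℚ K ((p : ℚ)⁻¹) * ∑ i : Fin (n + 1), hazL p w i * w (n - i) ^ (p ^ (i : ℕ))
decreasing_by exact i.2

theorem isHazLog_hazL {p : ℕ} (hp : p ≠ 0) {K : Type*} [CommRing K] [Algebra ℚ K] (w : ℕ → K) :
    IsHazLog p w (hazL p w) where
  zero := by rw [hazL]
  succ n := by
    have h1 : (p : K) * algebraMap ℚ K ((p : ℚ)⁻¹) = 1 := by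
      rw [← map_natCast (algebraMap ℚ K), ← map_mul, mul_inv_cancel₀ (by exact_mod_cast hp),
        map_one]
    rw [hazL, ← mul_assoc, h1, one_mul, Finset.sum_range]

/-- A prime is regular in a `ℚ`-algebra. -/
theorem reg_of_algebra {p : ℕ} (hp : p ≠ 0) {K : Type*} [CommRing K] [Algebra ℚ K] (x y : K)
    (h : (p : K) * x = p * y) : x = y := by
  have h1 : algebraMap ℚ K ((p : ℚ)⁻¹) * (p : K) = 1 := by
    rw [← map_natCast (algebraMap ℚ K), ← map_mul, inv_mul_cancel₀ (by exact_mod_cast hp),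
      map_one]
  calc x = algebraMap ℚ K ((p : ℚ)⁻¹) * ((p : K) * x) := by rw [← mul_assoc, h1, one_mul]
    _ = y := by rw [h, ← mul_assoc, h1, one_mul]

theorem pow_apply_of {σL : L →+* L} {w : ℕ → L} (hσ : ∀ j, σL (w j) = w j ^ p) (i j : ℕ) :
    (σL ^ i) (w j) = w j ^ (p ^ i) := by
  induction i with
  | zero => simp
  | succ i ih => rw [pow_succ, RingHom.mul_def, RingHom.comp_apply, hσ, map_pow, ih, ← pow_mul,
      ← pow_succ]

/-- The other form of the recursion. -/
theorem IsHazLog.fe {σL : L →+* L} {w l : ℕ → L} (h : IsHazLog p w l)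
    (hσ : ∀ j, σL (w j) = w j ^ p) (reg : ∀ x y : L, (p : L) * x = p * y → x = y) (n : ℕ) :
    (p : L) * l (n + 1) = ∑ i ∈ Finset.range (n + 1), w i * (σL ^ (i + 1)) (l (n - i)) := by
  induction n using Nat.strong_induction_on with
  | _ n ih =>
    apply reg
    rw [h.succ, Finset.sum_range_succ', Finset.sum_range_succ]
    set g : ℕ → ℕ → L := fun j m => w j * (σL ^ (j + 1)) (l m * w (n - 1 - j - m) ^ (p ^ m))
      with hg
    have h1 : (p : L) * ∑ i ∈ Finset.range n, l (i + 1) * w (n - (i + 1)) ^ (p ^ (i + 1)) =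
        ∑ i ∈ Finset.range n, ∑ j ∈ Finset.range (i + 1), g j (i - j) := by
      rw [Finset.mul_sum]
      refine Finset.sum_congr rfl fun i hi => ?_
      rw [Finset.mem_range] at hi
      rw [← mul_assoc, ih i hi, Finset.sum_mul]
      refine Finset.sum_congr rfl fun j hj => ?_
      rw [Finset.mem_range] at hj
      have h2 : n - 1 - j - (i - j) = n - (i + 1) := by omega
      have h3 : (p ^ (i - j)) * p ^ (j + 1) = p ^ (i + 1) := by
        rw [← pow_add]
        congr 1
        omega
      simp only [hg, h2, map_mul, map_pow]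
      rw [pow_apply_of hσ, ← pow_mul, mul_comm (p ^ (j + 1)), h3, mul_assoc]
    have h4 : ∀ j ∈ Finset.range n, ∑ m ∈ Finset.range (n - j), g j m =
        (p : L) * (w j * (σL ^ (j + 1)) (l (n - j))) := by
      intro j hj
      rw [Finset.mem_range] at hj
      simp only [hg]
      rw [← Finset.mul_sum, ← map_sum]
      have h5 : n - j = (n - 1 - j) + 1 := by omega
      have h6 : ∑ m ∈ Finset.range (n - j), l m * w (n - 1 - j - m) ^ (p ^ m) =
          (p : L) * l (n - j) := by
        rw [h5, h.succ]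
      rw [h6, map_mul, map_natCast]
      ring
    rw [mul_add, h1, Finset.sum_range_diag_flip n g, Finset.sum_congr rfl h4, ← Finset.mul_sum,
      h.zero, Nat.sub_self, h.zero, map_one, pow_zero, pow_one, Nat.sub_zero]
    ring

end Rec

section Univ

variable (p : ℕ) [hp : Fact p.Prime]

/-- The universal case satisfies the hypotheses of the functional equation lemma. -/
theorem fe_univ : FE (k := MvPolynomial ℕ (ZMod p)) p
    (MvPolynomial.map (Int.castRingHom ℚ) : MvPolynomial ℕ ℤ →+* MvPolynomial ℕ ℚ)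
    (MvPolynomial.map (Int.castRingHom (ZMod p)))
    ((MvPolynomial.expand p : MvPolynomial ℕ ℤ →ₐ[ℤ] MvPolynomial ℕ ℤ) : _ →+* _)
    ((MvPolynomial.expand p : MvPolynomial ℕ ℚ →ₐ[ℚ] MvPolynomial ℕ ℚ) : _ →+* _)
    MvPolynomial.X (hazL p MvPolynomial.X) where
  inj := MvPolynomial.map_injective _ (Int.castRingHom ℚ).injective_int
  ker a ha := by
    have h1 := (MvPolynomial.C_dvd_iff_zmod p a).2 ha
    rwa [map_natCast] at h1
  frob a := by
    change MvPolynomial.map _ (MvPolynomial.expand p a) = _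
    rw [MvPolynomial.map_expand, MvPolynomial.expand_zmod]
  comp a := by
    change MvPolynomial.expand p (MvPolynomial.map _ a) =
      MvPolynomial.map _ (MvPolynomial.expand p a)
    rw [MvPolynomial.map_expand]
  zero := (isHazLog_hazL hp.out.ne_zero _).zero
  rec' n := by
    rw [(isHazLog_hazL hp.out.ne_zero (MvPolynomial.X : ℕ → MvPolynomial ℕ ℚ)).fe
      (σL := ((MvPolynomial.expand p : MvPolynomial ℕ ℚ →ₐ[ℚ] MvPolynomial ℕ ℚ) : _ →+* _))
      (fun j => MvPolynomial.expand_X p j) (reg_of_algebra hp.out.ne_zero) n]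
    exact Finset.sum_congr rfl fun i _ => by rw [MvPolynomial.map_X]
  reg := reg_of_algebra hp.out.ne_zero

/-- The universal Hazewinkel law over `ℤ[v_1, v_2, …]`. -/
noncomputable def hazLaw : Law (MvPolynomial ℕ ℤ) := (fe_univ p).exists_law.choose

theorem isLog_hazLaw : IsLog ((hazLaw p).map (MvPolynomial.map (Int.castRingHom ℚ))).toFG
    (lser p (hazL p (MvPolynomial.X : ℕ → MvPolynomial ℕ ℚ))) :=
  (fe_univ p).exists_law.choose_spec

/-- The Hazewinkel law with `v_{i+1} = w i`. -/
noncomputable def haz {R : Type*} [CommRing R] (w : ℕ → R) : Law R :=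
  (hazLaw p).map (MvPolynomial.eval₂Hom (Int.castRingHom R) w)

variable {R R' K : Type*} [CommRing R] [CommRing R'] [CommRing K] [Algebra ℚ K]

theorem map_haz (φ : R →+* R') (w : ℕ → R) : (haz p w).map φ = haz p fun i => φ (w i) := by
  rw [haz, haz, Law.map_map]
  congr 1
  apply MvPolynomial.ringHom_ext
  · intro n
    simp
  · intro i
    simp

theorem isLog_haz (w : ℕ → K) : IsLog (haz p w).toFG (lser p (hazL p w)) := by
  have h1 := (isLog_hazLaw p).map (MvPolynomial.eval₂Hom (algebraMap ℚ K) w)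
  have h2 : (((hazLaw p).map (MvPolynomial.map (Int.castRingHom ℚ))).map
      (MvPolynomial.eval₂Hom (algebraMap ℚ K) w)) = haz p w := by
    rw [haz, Law.map_map]
    congr 1
    apply MvPolynomial.ringHom_ext
    · intro n
      simp
    · intro i
      simp
  rw [← Law.map_toFG, h2, map_lser] at h1
  have h3 := (isHazLog_hazL hp.out.ne_zero (MvPolynomial.X : ℕ → MvPolynomial ℕ ℚ)).map
    (MvPolynomial.eval₂Hom (algebraMap ℚ K) w)
  have h4 : (fun i => MvPolynomial.eval₂Hom (algebraMap ℚ K) w (MvPolynomial.X i)) = w := by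
    funext i
    simp
  rw [h4] at h3
  rwa [h3.unique (isHazLog_hazL hp.out.ne_zero w) (reg_of_algebra hp.out.ne_zero)] at h1

/-- two laws with the same logarithm are equal. -/
theorem law_ext_log {F G : Law K} {f : PowerSeries K} (hF : IsLog F.toFG f)
    (hG : IsLog G.toFG f) : F = G := by
  apply Law.ext_ps
  refine subst_injective hF.zero hF.unit F.toFG.zero_constantCoeff G.toFG.zero_constantCoeff ?_
  rw [hF.add, hG.add]

theorem map_injective_law {ι : R →+* R'} (hι : Function.Injective ι) {F G : Law R}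
    (h : F.map ι = G.map ι) : F = G := by
  apply Law.ext_ps
  have h1 := congrArg Law.ps h
  rw [Law.map_ps, Law.map_ps] at h1
  ext d
  apply hι
  have h2 := congrArg (coeff d) h1
  rwa [coeff_map, coeff_map] at h2

/-- **Characterisation**: a law over `R ⊂ K` whose logarithm is the Hazewinkel one is the
Hazewinkel law. -/
theorem eq_haz {ι : R →+* K} (hι : Function.Injective ι) {F : Law R} {w : ℕ → R} {l : ℕ → K}
    (hl : IsHazLog p (fun i => ι (w i)) l) (hF : IsLog (F.map ι).toFG (lser p l)) :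
    F = haz p w := by
  apply map_injective_law hι
  rw [map_haz]
  have h1 := isLog_haz p fun i => ι (w i)
  rw [← hl.unique (isHazLog_hazL hp.out.ne_zero _) (reg_of_algebra hp.out.ne_zero)] at h1
  exact law_ext_log hF h1

end Univ

section Coeff

variable {p : ℕ} [hp : Fact p.Prime]

/-- If `v_1 = … = v_n = 0` then `l_1 = … = l_n = 0`. -/
theorem IsHazLog.eq_zero {K : Type*} [CommRing K] {w l : ℕ → K} (h : IsHazLog p w l)
    (reg : ∀ x y : K, (p : K) * x = p * y → x = y) {n : ℕ} (hw : ∀ i < n, w i = 0) :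
    ∀ i < n, l (i + 1) = 0 := by
  intro i hi
  apply reg
  rw [h.succ, mul_zero]
  refine Finset.sum_eq_zero fun j hj => ?_
  rw [Finset.mem_range] at hj
  rw [hw (i - j) (by omega), zero_pow (pow_pos hp.out.pos _).ne', mul_zero]

theorem IsHazLog.eq_of {K : Type*} [CommRing K] {w l : ℕ → K} (h : IsHazLog p w l)
    (reg : ∀ x y : K, (p : K) * x = p * y → x = y) {n : ℕ} (hw : ∀ i < n, w i = 0) :
    (p : K) * l (n + 1) = w n := by
  rw [h.succ, Finset.sum_range_succ', h.zero, one_mul, pow_zero, pow_one, Nat.sub_zero]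
  have h1 : ∑ k ∈ Finset.range n, l (k + 1) * w (n - (k + 1)) ^ (p ^ (k + 1)) = 0 := by
    refine Finset.sum_eq_zero fun j hj => ?_
    rw [Finset.mem_range] at hj
    rw [h.eq_zero reg hw j hj, zero_mul]
  rw [h1, zero_add]

/-- The coefficient of `x ^ (p ^ (n+1))` in the `p`-series when `v_1 = … = v_n = 0`. -/
theorem p_mul_vv {K : Type*} [CommRing K] {F : Law K} {w l : ℕ → K} (h : IsHazLog p w l)
    (hF : IsLog F.toFG (lser p l)) (reg : ∀ x y : K, (p : K) * x = p * y → x = y) {n : ℕ}
    (hw : ∀ i < n, w i = 0) :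
    (p : K) * vv p (n + 1) F = (p : K) * w n - (p : K) ^ (p ^ (n + 1)) * w n := by
  have hq := hp.out.two_le
  set N := p ^ (n + 1) with hN
  have hX : PowerSeries.constantCoeff (PowerSeries.X : PowerSeries K) = 0 :=
    PowerSeries.constantCoeff_X
  have h7 := hF.subst_nsmul p (ZPt.mk F.toFG PowerSeries.X hX)
  rw [ZPt.val_nsmul] at h7
  have h8 : (PowerSeries.subst (ZPt.mk F.toFG PowerSeries.X hX).val
      (multSeries F.toFG p) : PowerSeries K) = multSeries F.toFG p := PowerSeries.X_subst _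
  have h9 : (PowerSeries.subst (ZPt.mk F.toFG PowerSeries.X hX).val
      (lser p l) : PowerSeries K) = lser p l := PowerSeries.X_subst _
  rw [h8, h9] at h7
  have ha0 : constantCoeff (multSeries F.toFG p) = 0 := constantCoeff_multSeries F.toFG p
  have h10 := congrArg (coeff (single () N)) h7
  have hdeg : degree (single () N : Unit →₀ ℕ) = N := by simp
  have hnN : n + 1 < N := Nat.lt_pow_self hq
  rw [coeff_subst_lser hq l ha0 _ (M := N + 1) (by omega)] at h10
  have h11 : ∀ i ∈ Finset.range (N + 1), i ≠ 0 ∧ i ≠ n + 1 →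
      l i * coeff (single () N) (multSeries F.toFG p ^ (p ^ i)) = 0 := by
    rintro i _ ⟨hi0, hi1⟩
    rcases Nat.lt_or_ge i (n + 1) with hi | hi
    · obtain ⟨j, rfl⟩ : ∃ j, i = j + 1 := ⟨i - 1, by omega⟩
      rw [h.eq_zero reg hw j (by omega), zero_mul]
    · have h12 : coeff (single () N) (multSeries F.toFG p ^ (p ^ i)) = 0 := by
        apply coeff_eq_zero_of_constantCoeff_nilpotent (m := 1) (by rw [ha0]; simp)
        have h13 : N < p ^ i := Nat.pow_lt_pow_right hp.out.one_lt (by omega)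
        rw [hdeg]
        omega
      rw [h12, mul_zero]
  have h14 : ∑ i ∈ Finset.range (N + 1), l i * coeff (single () N)
      (multSeries F.toFG p ^ (p ^ i)) =
      coeff (single () N) (multSeries F.toFG p) +
        l (n + 1) * coeff (single () N) (multSeries F.toFG p ^ N) := by
    rw [Finset.sum_eq_add_of_mem 0 (n + 1) (by rw [Finset.mem_range]; omega)
      (by rw [Finset.mem_range]; omega) (by omega) h11, h.zero, pow_zero, pow_one, one_mul]
  have h15 : coeff (single () N) (multSeries F.toFG p ^ N) = (p : K) ^ N := by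
    obtain ⟨b, hb⟩ := PowerSeries.X_dvd_iff.2 ha0
    have h16 : PowerSeries.constantCoeff b = (p : K) := by
      have h17 := coeff_one_multSeries (F := F.toFG) p
      rw [hb] at h17
      have h18 := PowerSeries.coeff_succ_X_mul 0 b
      rw [zero_add] at h18
      rw [← h17, h18, PowerSeries.coeff_zero_eq_constantCoeff_apply]
    change PowerSeries.coeff N (multSeries F.toFG p ^ N) = _
    rw [hb, mul_pow, mul_comm, ← Nat.zero_add N, PowerSeries.coeff_mul_X_pow',
      if_pos (by omega)]
    simp [h16]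
  have h19 : coeff (single () N) (p • lser p l) = (p : K) * l (n + 1) := by
    change PowerSeries.coeff N (p • lser p l) = _
    rw [map_nsmul, hN, coeff_lser_pow hq, nsmul_eq_mul]
  rw [h14, h15, h19] at h10
  have h20 : vv p (n + 1) F = coeff (single () N) (multSeries F.toFG p) := rfl
  have h21 := h.eq_of reg hw
  rw [h20]
  linear_combination (p : K) * h10 + ((p : K) - (p : K) ^ N) * h21

open Classical in
/-- the substitution killing `X_i`, `i < n`. -/
noncomputable def killHom (n : ℕ) : MvPolynomial ℕ ℤ →+* MvPolynomial ℕ ℤ :=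
  MvPolynomial.eval₂Hom (Int.castRingHom _) fun i => if i < n then 0 else MvPolynomial.X i

theorem sub_killHom_mem (n : ℕ) (P : MvPolynomial ℕ ℤ) :
    P - killHom n P ∈ Ideal.span (MvPolynomial.X '' {i | i < n}) := by
  set J : Ideal (MvPolynomial ℕ ℤ) := Ideal.span (MvPolynomial.X '' {i | i < n}) with hJ
  have h1 : Ideal.Quotient.mk J = (Ideal.Quotient.mk J).comp (killHom n) := by
    apply MvPolynomial.ringHom_ext
    · intro r
      simp [killHom]
    · intro i
      rw [RingHom.comp_apply, killHom, MvPolynomial.coe_eval₂Hom, MvPolynomial.eval₂_X]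
      split_ifs with hi
      · rw [map_zero, Ideal.Quotient.eq_zero_iff_mem]
        exact Ideal.subset_span ⟨i, hi, rfl⟩
      · rfl
  have h2 := RingHom.congr_fun h1 P
  rw [RingHom.comp_apply] at h2
  rwa [Ideal.Quotient.eq] at h2

/-- the universal coefficient after killing `v_1, …, v_n`. -/
theorem killHom_vv (n : ℕ) : killHom n (vv p (n + 1) (hazLaw p)) =
    MvPolynomial.X n - (p : MvPolynomial ℕ ℤ) ^ (p ^ (n + 1) - 1) * MvPolynomial.X n := by
  classical
  have hp0 := hp.out.ne_zero
  set ι : MvPolynomial ℕ ℤ →+* MvPolynomial ℕ ℚ := MvPolynomial.map (Int.castRingHom ℚ) with hι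
  have hinj : Function.Injective ι := MvPolynomial.map_injective _ (Int.castRingHom ℚ).injective_int
  set w : ℕ → MvPolynomial ℕ ℚ := fun i => if i < n then 0 else MvPolynomial.X i with hw
  have h1 : ((hazLaw p).map (killHom n)).map ι = haz p w := by
    rw [haz, Law.map_map]
    congr 1
    apply MvPolynomial.ringHom_ext
    · intro r
      simp [killHom]
    · intro i
      rw [RingHom.comp_apply, killHom, MvPolynomial.coe_eval₂Hom, MvPolynomial.eval₂_X,
        MvPolynomial.coe_eval₂Hom, MvPolynomial.eval₂_X, hw]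
      simp only
      split_ifs
      · rw [map_zero]
      · rw [hι, MvPolynomial.map_X]
  have h2 := p_mul_vv (isHazLog_hazL hp0 w) (isLog_haz p w) (reg_of_algebra hp0) (n := n)
    (fun i hi => by simp only [hw, if_pos hi])
  have h3 : w n = MvPolynomial.X n := by simp only [hw, lt_irrefl, if_false]
  rw [h3] at h2
  have h4 : vv p (n + 1) (haz p w) = ι (killHom n (vv p (n + 1) (hazLaw p))) := by
    rw [← h1, vv_map, vv_map]
  rw [h4] at h2
  apply hinj
  apply reg_of_algebra hp0
  rw [h2, map_sub, map_mul, map_pow, map_natCast, hι, MvPolynomial.map_X, mul_sub, ← mul_assoc,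
    ← pow_succ', Nat.sub_add_cancel (pow_pos hp.out.pos _)]

variable {R : Type*} [CommRing R]

/-- The ideal `(p, v_1, …, v_n)`. -/
def IH (p : ℕ) (w : ℕ → R) (n : ℕ) : Ideal R := Ideal.span (insert (p : R) (w '' {i | i < n}))

theorem p_mem_IH (w : ℕ → R) (n : ℕ) : (p : R) ∈ IH p w n :=
  Ideal.subset_span (Set.mem_insert _ _)

theorem mem_IH (w : ℕ → R) {n i : ℕ} (hi : i < n) : w i ∈ IH p w n :=
  Ideal.subset_span (Set.mem_insert_of_mem _ ⟨i, hi, rfl⟩)

theorem IH_le {w : ℕ → R} {n : ℕ} {J : Ideal R} (h0 : (p : R) ∈ J) (h : ∀ i < n, w i ∈ J) :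
    IH p w n ≤ J := by
  rw [IH, Ideal.span_le]
  rintro x (rfl | ⟨i, hi, rfl⟩)
  · exact h0
  · exact h i hi

theorem IH_mono (w : ℕ → R) {m n : ℕ} (h : m ≤ n) : IH p w m ≤ IH p w n :=
  IH_le (p_mem_IH w n) fun _ hi => mem_IH w (lt_of_lt_of_le hi h)

/-- **The coefficient of `x ^ (p ^ (n+1))` in the `p`-series of the Hazewinkel law is `v_{n+1}`
modulo `(p, v_1, …, v_n)`.** -/
theorem vv_haz_sub_mem (w : ℕ → R) (n : ℕ) : vv p (n + 1) (haz p w) - w n ∈ IH p w n := by
  set φ : MvPolynomial ℕ ℤ →+* R := MvPolynomial.eval₂Hom (Int.castRingHom R) w with hφ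
  have h1 : vv p (n + 1) (haz p w) = φ (vv p (n + 1) (hazLaw p)) := by
    rw [haz, vv_map]
  have h2 := sub_killHom_mem n (vv p (n + 1) (hazLaw p))
  rw [killHom_vv] at h2
  have h3 : (Ideal.span (MvPolynomial.X '' {i | i < n}) : Ideal (MvPolynomial ℕ ℤ)) ≤
      (IH p w n).comap φ := by
    rw [Ideal.span_le]
    rintro x ⟨i, hi, rfl⟩
    change φ (MvPolynomial.X i) ∈ IH p w n
    rw [hφ, MvPolynomial.coe_eval₂Hom, MvPolynomial.eval₂_X]
    exact mem_IH w hi
  have h4 : φ (vv p (n + 1) (hazLaw p) - (MvPolynomial.X n -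
      (p : MvPolynomial ℕ ℤ) ^ (p ^ (n + 1) - 1) * MvPolynomial.X n)) ∈ IH p w n := h3 h2
  rw [map_sub, map_sub, map_mul, map_pow, map_natCast, ← h1] at h4
  have h5 : φ (MvPolynomial.X n) = w n := by
    rw [hφ, MvPolynomial.coe_eval₂Hom, MvPolynomial.eval₂_X]
  rw [h5] at h4
  have h6 : (p : R) ^ (p ^ (n + 1) - 1) * w n ∈ IH p w n := by
    have h7 : 1 < p ^ (n + 1) := Nat.one_lt_pow (Nat.succ_ne_zero n) hp.out.one_lt
    obtain ⟨m, hm⟩ : ∃ m, p ^ (n + 1) - 1 = m + 1 := ⟨p ^ (n + 1) - 2, by omega⟩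
    rw [hm, pow_succ, mul_assoc]
    exact Ideal.mul_mem_left _ _ (Ideal.mul_mem_right _ _ (p_mem_IH w n))
  have h8 : vv p (n + 1) (haz p w) - w n =
      (vv p (n + 1) (haz p w) - (w n - (p : R) ^ (p ^ (n + 1) - 1) * w n)) -
        (p : R) ^ (p ^ (n + 1) - 1) * w n := by ring
  rw [h8]
  exact Ideal.sub_mem _ h4 h6

/-- **The ideals `(p, v_1, …, v_n)` formed with the Hazewinkel generators and with the
coefficients of the `p`-series are equal.** -/
theorem IH_vv_eq (w : ℕ → R) (n : ℕ) :
    IH p (fun i => vv p (i + 1) (haz p w)) n = IH p w n := by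
  induction n with
  | zero =>
    apply le_antisymm
    · exact IH_le (p_mem_IH w 0) fun i hi => absurd hi (Nat.not_lt_zero i)
    · exact IH_le (p_mem_IH _ 0) fun i hi => absurd hi (Nat.not_lt_zero i)
  | succ n ih =>
    have h1 : vv p (n + 1) (haz p w) - w n ∈ IH p w (n + 1) :=
      IH_mono w (Nat.le_succ n) (vv_haz_sub_mem w n)
    have h2 : vv p (n + 1) (haz p w) - w n ∈ IH p (fun i => vv p (i + 1) (haz p w)) (n + 1) :=
      IH_mono _ (Nat.le_succ n) (ih ▸ vv_haz_sub_mem w n)
    apply le_antisymm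
    · refine IH_le (p_mem_IH w _) fun i hi => ?_
      rcases Nat.lt_succ_iff_lt_or_eq.1 hi with hi | rfl
      · exact IH_mono w (Nat.le_succ n) (ih ▸ mem_IH (fun i => vv p (i + 1) (haz p w)) hi)
      · have h3 : vv p (i + 1) (haz p w) = (vv p (i + 1) (haz p w) - w i) + w i := by ring
        change vv p (i + 1) (haz p w) ∈ _
        rw [h3]
        exact Ideal.add_mem _ h1 (mem_IH w (Nat.lt_succ_self i))
    · refine IH_le (p_mem_IH _ _) fun i hi => ?_
      rcases Nat.lt_succ_iff_lt_or_eq.1 hi with hi | rfl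
      · exact IH_mono _ (Nat.le_succ n) (ih.symm ▸ mem_IH w hi)
      · have h3 : w i = vv p (i + 1) (haz p w) - (vv p (i + 1) (haz p w) - w i) := by ring
        rw [h3]
        exact Ideal.sub_mem _ (mem_IH (fun i => vv p (i + 1) (haz p w)) (Nat.lt_succ_self i)) h2

/-- The same for a law given by its logarithm. -/
theorem IH_vv_eq_of_log {K : Type*} [CommRing K] [Algebra ℚ K] {ι : R →+* K}
    (hι : Function.Injective ι) {F : Law R} {w : ℕ → R} {l : ℕ → K}
    (hl : IsHazLog p (fun i => ι (w i)) l) (hF : IsLog (F.map ι).toFG (lser p l)) (n : ℕ) :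
    vv p (n + 1) F - w n ∈ IH p w n ∧ IH p (fun i => vv p (i + 1) F) n = IH p w n := by
  rw [eq_haz p hι hl hF]
  exact ⟨vv_haz_sub_mem w n, IH_vv_eq w n⟩

end Coeff

end Vale.Agent.P257.V4.S
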